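import Vale.Agent.P106.R.H425.Col

/-!
# P106 / R, copy of P122 / H425 : finite form of RG2 (helper425)

Good/bad labels of the nodes at all levels and column refinement in one step.
-/

set_option autoImplicit false

namespace Vale.Agent.P106.R.H425

open Finset Vale.Agent.P106.R.C2

/-- total loss of RG2 -/
def q2 (n K : ℕ) : ℕ := los 2 n K ^ (K + 1) * los (2 * n + 1) n K ^ K

theorem q2_pos (n K : ℕ) : 0 < q2 n K := by
  unfold q2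
  exact Nat.mul_pos (pow_pos (los_pos (by norm_num)) _) (pow_pos (los_pos (by omega)) _)

theorem q2_le (n K : ℕ) : q2 n K ≤ 2 ^ (K + 1) * (2 * n + 1) ^ (2 * (K + 1) * (K + 1)) := by
  unfold q2 los
  have h : (1:ℕ) ≤ 2 * n + 1 := by omega
  calc (2 * (2 * n + 1) ^ K) ^ (K + 1) * ((2 * n + 1) * (2 * n + 1) ^ K) ^ K
      = 2 ^ (K + 1) * (2 * n + 1) ^ (K * (K + 1) + (K + 1) * K) := by
        rw [mul_pow, ← pow_mul, ← pow_succ', ← pow_mul, pow_add]; ring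
    _ ≤ _ := Nat.mul_le_mul_left _ (Nat.pow_le_pow_right h (by nlinarith))

variable {C : ℝ} {n K : ℕ}

/-- **RG2, finite form** -/
theorem rg2_fin (F : Amp C n K) (hC : 0 ≤ C) (V : Val) (ρ : ℝ) (a : ℕ → ℝ) (J : ℕ → ℕ) (h : V.Ok F ρ a J)
    (hρ : 0 < ρ) (bad : ℕ → Nd → Prop) (φ : ℕ → Nd → ℝ) (w : Nd → ℝ) (hw : ∀ x ∈ V.X, 0 ≤ w x) :
    ∃ (V' : Val) (J' : ℕ → ℕ) (u : ℕ → ℕ), V'.Le V ∧ V'.Ok F (ρ / (q2 n K : ℕ)) a J' ∧
      (∀ c, c ≤ K → (∀ S ∈ V'.D F.s n c, bad c S) ∨ ∀ S ∈ V'.D F.s n c, ¬ bad c S) ∧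
      (∀ i, u i ≤ 2 * n) ∧
      (∀ i, 1 ≤ i → i < K → (V'.D F.s n i).Nonempty → 2 ^ u i ≤ (2 * ⌈3 * C⌉₊ + 1) ^ 2 * ((4 * ⌈C⌉₊ + 2) * 2 ^ n)) ∧
      (∀ i, 1 ≤ i → i < K → ∀ S ∈ V'.D F.s n i,
        (∀ (U : Finset Nd) (r : ℝ), U ⊆ V'.D F.s n i →
          (∀ S₁ ∈ U, S₁.sg n = S.sg n ∧ |fn (φ i (S.sg n)) (fun j => (S₁.o j : ℝ)) - r| ≤ 1) →
          (U.card : ℝ) * (ρ / (q2 n K : ℕ) * a i) ^ 2 ≤ 48 * C * 2 ^ (n + u i + J' i) * a (i + 1) ^ 2) ∧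
        (∀ E : Finset Z2, E ⊆ V'.G i (S.sg n) →
          (∀ t ∈ E, ∀ t' ∈ E, 2 ^ ((i + 1) * n) *
            |fn (φ i (S.sg n)) (F.s (i + 1) t) - fn (φ i (S.sg n)) (F.s (i + 1) t')| ≤ 1) →
          E.card * 2 ^ u i ≤ (2 * ⌈3 * C⌉₊ + 1) ^ 2 * 2 ^ (J i + 1))) ∧
      ∑ x ∈ V.X, w x ≤ (q2 n K : ℕ) * ∑ x ∈ V'.X, w x := by
  classical
  obtain ⟨V1, J1, ν, h1, h2, h3, h4⟩ := tnref (F := F) V ρ a J h hρ w hw 2 (by norm_num)
    (fun c S => if bad c S then (1 : Fin 2) else 0) (K + 1) le_rfl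
  have hl : (0 : ℝ) < (los 2 n K : ℕ) := los_cast_pos (by norm_num)
  have hρ1 : 0 < ρ / (los 2 n K : ℕ) ^ (K + 1) := by positivity
  obtain ⟨V', J', u, k1, k2, k3, k4, k5, k6⟩ := col_ref F hC V1 _ a J1 h2 hρ1 φ w fun x hx => hw x (h1.1 hx)
  have eq : ρ / (los 2 n K : ℕ) ^ (K + 1) / (los (2 * n + 1) n K : ℕ) ^ K = ρ / (q2 n K : ℕ) := by
    rw [div_div]
    unfold q2
    push_cast
    rfl
  rw [eq] at k2 k5
  refine ⟨V', J', u, k1.trans h1, k2, ?_, k3, k4, ?_, ?_⟩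
  · intro c hc
    by_cases hν : ν c = 1
    · left
      intro S hS
      have h5 := h3 c (by omega) S (k1.D c hS)
      rw [hν] at h5
      by_contra hb
      rw [if_neg hb] at h5
      exact absurd h5 (by decide)
    · right
      intro S hS hb
      have h5 := h3 c (by omega) S (k1.D c hS)
      rw [if_pos hb] at h5
      exact hν h5.symm
  · intro i hi1 hiK S hS
    obtain ⟨g1, g2⟩ := k5 i hi1 hiK S hS
    refine ⟨g1, fun E hE hd => (g2 E hE hd).trans ?_⟩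
    refine Nat.mul_le_mul_left _ (Nat.pow_le_pow_right (by norm_num) ?_)
    -- `J1 i ≤ J i`
    have hS1 : S ∈ V1.D F.s n i := k1.D i hS
    have m1 := (h2.size i hiK S hS1).1
    have m2 := (h.size i hiK S (h1.D i hS1)).2
    have m3 := Finset.card_le_card (h1.2 i (S.sg n))
    have m4 : 2 ^ J1 i < 2 ^ (J i + 1) := lt_of_le_of_lt (m1.trans m3) m2
    have := (Nat.pow_lt_pow_iff_right (by norm_num : 1 < 2)).1 m4
    omega
  · have hs : 0 ≤ ∑ x ∈ V1.X, w x := Finset.sum_nonneg fun x hx => hw x (h1.1 hx)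
    calc ∑ x ∈ V.X, w x ≤ (los 2 n K : ℕ) ^ (K + 1) * ∑ x ∈ V1.X, w x := h4
      _ ≤ (los 2 n K : ℕ) ^ (K + 1) * ((los (2 * n + 1) n K : ℕ) ^ K * ∑ x ∈ V'.X, w x) :=
          mul_le_mul_of_nonneg_left k6 (by positivity)
      _ = (q2 n K : ℕ) * ∑ x ∈ V'.X, w x := by unfold q2; push_cast; ring

end Vale.Agent.P106.R.H425
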