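import Vale.Agent.P127.U.Ent

/-!
# P106 / R, copy of P122 / H425 : numerical lemmas along the ultrafilter for RG2 (helper425)
-/

set_option autoImplicit false

namespace Vale.Agent.P106.R.H425

open Filter Topology Vale.Agent.P127 Vale.Agent.P127.U

variable {L : ℕ → ℕ}

theorem const_le_pow (hL : Tendsto L (uf : Filter ℕ) atTop) (c : ℝ) {ε : ℝ} (hε : 0 < ε) :
    ∀ᶠ i in (uf : Filter ℕ), c ≤ (2 : ℝ) ^ (ε * L i) := by
  have h1 : Tendsto (fun i => ε * (L i : ℝ)) (uf : Filter ℕ) atTop :=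
    (tendsto_natCast_atTop_atTop.comp hL).const_mul_atTop hε
  have h2 : Tendsto (fun i => (2 : ℝ) ^ (ε * (L i : ℝ))) (uf : Filter ℕ) atTop := by
    have h3 : ∀ x : ℝ, (2 : ℝ) ^ x = Real.exp (Real.log 2 * x) := fun x => Real.rpow_def_of_pos (by norm_num) x
    simp only [h3]
    exact Real.tendsto_exp_atTop.comp (h1.const_mul_atTop (Real.log_pos (by norm_num)))
  exact h2.eventually_ge_atTop c

/-- the numbers of (B2') -/
theorem num_B2 {K : ℕ} (hK : 1 ≤ K) {n u J' : ℕ → ℕ} (hL : Tendsto L (uf : Filter ℕ) atTop)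
    (hLn : ∀ i, L i = K * n i) {ρ' a b : ℕ → ℝ} {θ Jn JF C : ℝ}
    (hρ0 : ∀ i, 0 < ρ' i) (hb0 : ∀ i, 0 < b i)
    (hρ : ∀ ε : ℝ, 0 < ε → ∀ᶠ i in (uf : Filter ℕ), (2 : ℝ) ^ (-(ε * L i)) ≤ ρ' i)
    (hab : ∀ ε : ℝ, 0 < ε → ∀ᶠ i in (uf : Filter ℕ), (2 : ℝ) ^ ((θ + Jn / 2 - ε) * L i) * b i ≤ a i)
    (hJ : ∀ ε : ℝ, 0 < ε → ∀ᶠ i in (uf : Filter ℕ), (J' i : ℝ) ≤ (Jn + ε) * L i)
    (hu : ∀ ε : ℝ, 0 < ε → ∀ᶠ i in (uf : Filter ℕ), (u i : ℝ) ≤ (JF + ε) * L i) :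
    ∀ ε : ℝ, 0 < ε → ∀ᶠ i in (uf : Filter ℕ), ∀ m : ℝ, m * (ρ' i * a i) ^ 2 ≤ C * 2 ^ (n i + u i + J' i) * b i ^ 2 →
      m ≤ (2 : ℝ) ^ ((1 / K - 2 * θ + JF + ε) * L i) := by
  intro ε hε
  have hε7 : 0 < ε / 7 := by positivity
  filter_upwards [hρ _ hε7, hab _ hε7, hJ _ hε7, hu _ hε7, const_le_pow hL C hε7] with i h1 h2 h3 h4 h5 m hm
  have hKR : (0:ℝ) < K := by exact_mod_cast hK
  have hLi : (L i : ℝ) = K * n i := by rw [hLn i]; push_cast; ring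
  have hni : (n i : ℝ) = 1 / K * L i := by rw [hLi]; field_simp
  set lam : ℝ := (L i : ℝ) with hlam
  have p0 : (0:ℝ) < (2 : ℝ) ^ (-(ε / 7 * lam)) := Real.rpow_pos_of_pos (by norm_num) _
  have p1 : (0:ℝ) < (2 : ℝ) ^ ((θ + Jn / 2 - ε / 7) * lam) := Real.rpow_pos_of_pos (by norm_num) _
  have e1 : (2:ℝ) ^ (n i + u i + J' i) ≤ (2:ℝ) ^ ((1 / K + (JF + ε / 7) + (Jn + ε / 7)) * lam) := by
    rw [← Real.rpow_natCast]
    apply Real.rpow_le_rpow_of_exponent_le (by norm_num)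
    push_cast
    rw [hni]
    nlinarith
  have hb := hb0 i
  have e2 : ((2 : ℝ) ^ (-(ε / 7 * lam)) * ((2 : ℝ) ^ ((θ + Jn / 2 - ε / 7) * lam) * b i)) ^ 2 ≤ (ρ' i * a i) ^ 2 := by
    apply pow_le_pow_left₀ (by positivity)
    exact mul_le_mul h1 h2 (by positivity) (hρ0 i).le
  have hm0 : m * ((2 : ℝ) ^ (-(ε / 7 * lam)) * ((2 : ℝ) ^ ((θ + Jn / 2 - ε / 7) * lam) * b i)) ^ 2 ≤
      (2 : ℝ) ^ (ε / 7 * lam) * (2:ℝ) ^ ((1 / K + (JF + ε / 7) + (Jn + ε / 7)) * lam) * b i ^ 2 := by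
    rcases le_or_gt m 0 with hm0 | hm0
    · refine le_trans (mul_nonpos_of_nonpos_of_nonneg hm0 (sq_nonneg _)) (by positivity)
    · calc _ ≤ m * (ρ' i * a i) ^ 2 := mul_le_mul_of_nonneg_left e2 hm0.le
        _ ≤ _ := hm
        _ ≤ _ := by
            apply mul_le_mul_of_nonneg_right _ (sq_nonneg _)
            exact mul_le_mul h5 e1 (by positivity) (by positivity)
  have e3 : ((2 : ℝ) ^ (-(ε / 7 * lam)) * ((2 : ℝ) ^ ((θ + Jn / 2 - ε / 7) * lam) * b i)) ^ 2 =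
      (2:ℝ) ^ (2 * (θ + Jn / 2 - 2 * (ε / 7)) * lam) * b i ^ 2 := by
    rw [mul_pow, mul_pow, ← Real.rpow_natCast ((2:ℝ) ^ (-(ε / 7 * lam))), ← Real.rpow_natCast ((2:ℝ) ^ ((θ + Jn / 2 - ε / 7) * lam)),
      ← Real.rpow_mul (by norm_num), ← Real.rpow_mul (by norm_num), ← mul_assoc, ← Real.rpow_add (by norm_num)]
    congr 2
    push_cast
    ring
  have e4 : (2 : ℝ) ^ (ε / 7 * lam) * (2:ℝ) ^ ((1 / K + (JF + ε / 7) + (Jn + ε / 7)) * lam) =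
      (2:ℝ) ^ ((1 / K + JF + Jn + 3 * (ε / 7)) * lam) := by
    rw [← Real.rpow_add (by norm_num)]
    congr 1
    ring
  rw [e3, e4, ← mul_assoc] at hm0
  have hb2 : 0 < b i ^ 2 := by positivity
  have h6 := le_of_mul_le_mul_right hm0 hb2
  have p2 : (0:ℝ) < (2:ℝ) ^ (2 * (θ + Jn / 2 - 2 * (ε / 7)) * lam) := Real.rpow_pos_of_pos (by norm_num) _
  rw [← le_div_iff₀ p2, ← Real.rpow_sub (by norm_num)] at h6
  refine h6.trans (le_of_eq ?_)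
  congr 1
  ring

/-- the numbers of (C2') -/
theorem num_C2 {u J : ℕ → ℕ} (hL : Tendsto L (uf : Filter ℕ) atTop) {Jn JF C : ℝ}
    (hJ : ∀ ε : ℝ, 0 < ε → ∀ᶠ i in (uf : Filter ℕ), (J i : ℝ) ≤ (Jn + ε) * L i)
    (hu : ∀ ε : ℝ, 0 < ε → ∀ᶠ i in (uf : Filter ℕ), (JF - ε) * L i ≤ u i) :
    ∀ ε : ℝ, 0 < ε → ∀ᶠ i in (uf : Filter ℕ), ∀ m : ℝ, m * 2 ^ u i ≤ C * 2 ^ (J i + 1) →
      m ≤ (2 : ℝ) ^ ((Jn - JF + ε) * L i) := by
  intro ε hε
  have hε3 : 0 < ε / 3 := by positivity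
  filter_upwards [hJ _ hε3, hu _ hε3, const_le_pow hL (2 * C) hε3] with i h1 h2 h3 m hm
  have p : (0:ℝ) < 2 ^ u i := by positivity
  have h4 : m ≤ C * 2 ^ (J i + 1) / 2 ^ u i := by rwa [le_div_iff₀ p]
  refine h4.trans ?_
  rw [div_le_iff₀ p]
  have e1 : (2:ℝ) ^ (J i) ≤ (2:ℝ) ^ ((Jn + ε / 3) * L i) := by
    rw [← Real.rpow_natCast]
    exact Real.rpow_le_rpow_of_exponent_le (by norm_num) h1
  have e2 : (2:ℝ) ^ ((JF - ε / 3) * L i) ≤ (2:ℝ) ^ (u i) := by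
    rw [← Real.rpow_natCast (2:ℝ) (u i)]
    exact Real.rpow_le_rpow_of_exponent_le (by norm_num) h2
  calc C * 2 ^ (J i + 1) = (2 * C) * 2 ^ (J i) := by rw [pow_succ]; ring
    _ ≤ (2 : ℝ) ^ (ε / 3 * L i) * (2:ℝ) ^ ((Jn + ε / 3) * L i) := mul_le_mul h3 e1 (by positivity) (by positivity)
    _ = (2 : ℝ) ^ ((Jn - JF + ε) * L i) * (2:ℝ) ^ ((JF - ε / 3) * L i) := by
        rw [← Real.rpow_add (by norm_num), ← Real.rpow_add (by norm_num)]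
        congr 1
        ring
    _ ≤ (2 : ℝ) ^ ((Jn - JF + ε) * L i) * 2 ^ u i := mul_le_mul_of_nonneg_left e2 (by positivity)

/-- `JF ≤ 1 / K` -/
theorem num_JF {K : ℕ} (hK : 1 ≤ K) {n u : ℕ → ℕ} (hL : Tendsto L (uf : Filter ℕ) atTop) (hLn : ∀ i, L i = K * n i)
    {C : ℝ} (h : ∀ᶠ i in (uf : Filter ℕ), (2:ℝ) ^ u i ≤ C * 2 ^ n i) :
    UB (fun i => (u i : ℝ) / L i) ∧ 0 ≤ ulim (fun i => (u i : ℝ) / L i) ∧ ulim (fun i => (u i : ℝ) / L i) ≤ 1 / K := by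
  have hKR : (0:ℝ) < K := by exact_mod_cast hK
  have hpos : ∀ᶠ i in (uf : Filter ℕ), 0 < (L i : ℝ) := by
    filter_upwards [hL.eventually_gt_atTop 0] with i hi
    exact_mod_cast hi
  have key : ∀ ε : ℝ, 0 < ε → ∀ᶠ i in (uf : Filter ℕ), (u i : ℝ) / L i ≤ 1 / K + ε := by
    intro ε hε
    filter_upwards [h, hpos, const_le_pow hL C hε] with i h1 h2 h3
    have hLi : (L i : ℝ) = K * n i := by rw [hLn i]; push_cast; ring
    have hni : (n i : ℝ) = 1 / K * L i := by rw [hLi]; field_simp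
    rw [div_le_iff₀ h2]
    have h4 : (2:ℝ) ^ ((u i : ℝ)) ≤ (2:ℝ) ^ ((1 / K + ε) * L i) := by
      calc (2:ℝ) ^ ((u i : ℝ)) = (2:ℝ) ^ u i := Real.rpow_natCast _ _
        _ ≤ C * 2 ^ n i := h1
        _ ≤ (2 : ℝ) ^ (ε * L i) * (2:ℝ) ^ ((n i : ℝ)) := by
            rw [Real.rpow_natCast]
            exact mul_le_mul_of_nonneg_right h3 (by positivity)
        _ = (2:ℝ) ^ ((1 / K + ε) * L i) := by
            rw [← Real.rpow_add (by norm_num), hni]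
            congr 1
            ring
    exact (Real.rpow_le_rpow_left_iff (by norm_num)).1 h4
  have hub : UB (fun i => (u i : ℝ) / L i) := by
    refine UB.of_le (C := 1 / K + 1) ?_ (key 1 one_pos)
    filter_upwards [hpos] with i hi
    exact div_nonneg (Nat.cast_nonneg _) hi.le
  refine ⟨hub, const_le_ulim hub ?_, ?_⟩
  · filter_upwards [hpos] with i hi
    exact div_nonneg (Nat.cast_nonneg _) hi.le
  · refine le_of_forall_pos_le_add fun ε hε => ?_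
    exact ulim_le_const hub (key ε hε)

/-- two-sided bounds from the ultralimit -/
theorem ulim_two {x : ℕ → ℝ} (hx : UB fun i => x i / L i) (hL : Tendsto L (uf : Filter ℕ) atTop) :
    ∀ ε : ℝ, 0 < ε → ∀ᶠ i in (uf : Filter ℕ), (ulim (fun i => x i / L i) - ε) * L i ≤ x i ∧
      x i ≤ (ulim (fun i => x i / L i) + ε) * L i := by
  intro ε hε
  have hpos : ∀ᶠ i in (uf : Filter ℕ), 0 < (L i : ℝ) := by
    filter_upwards [hL.eventually_gt_atTop 0] with i hi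
    exact_mod_cast hi
  have h1 := ulim_lt_eventually hx (c := ulim (fun i => x i / L i) + ε) (by linarith)
  have h2 := lt_ulim_eventually hx (c := ulim (fun i => x i / L i) - ε) (by linarith)
  filter_upwards [h1, h2, hpos] with i g1 g2 g3
  exact ⟨((lt_div_iff₀ g3).1 g2).le, ((div_lt_iff₀ g3).1 g1).le⟩

end Vale.Agent.P106.R.H425
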