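import Vale.Agent.P106.R.C.Val

/-!
# P106 / R, copy of P122 / H425 : trivial count of tubes in a strip (helper425)
-/

set_option autoImplicit false

namespace Vale.Agent.P106.R.H425

open Finset Vale.Agent.P106.R.C2

/-- at most five integers -/
theorem card_near (E : Finset ℤ) (c b : ℝ) (hc : 1 / 2 ≤ |c|) (h : ∀ z ∈ E, |c * z - b| ≤ 1) : E.card ≤ 5 := by
  have hc0 : c ≠ 0 := by
    rintro rfl
    simp at hc
    linarith
  have hsub : E ⊆ Finset.Icc ⌈b / c - 2⌉ ⌊b / c + 2⌋ := by
    intro z hz
    have h1 := h z hz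
    have h2 : |(z:ℝ) - b / c| ≤ 2 := by
      have e : c * z - b = c * (z - b / c) := by field_simp
      rw [e, abs_mul] at h1
      have : |c| * |(z:ℝ) - b / c| ≤ 1 := h1
      nlinarith [abs_nonneg ((z:ℝ) - b / c)]
    have h3 := abs_le.1 h2
    rw [mem_Icc]
    exact ⟨Int.ceil_le.2 (by linarith [h3.1]), Int.le_floor.2 (by linarith [h3.2])⟩
  refine (card_le_card hsub).trans ?_
  rw [Int.card_Icc]
  have a1 := Int.floor_le (b / c + 2)
  have a2 := Int.le_ceil (b / c - 2)
  have a3 : ((⌊b / c + 2⌋ : ℤ) : ℝ) - (⌈b / c - 2⌉ : ℤ) ≤ 4 := by linarith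
  have a4 : ⌊b / c + 2⌋ - ⌈b / c - 2⌉ ≤ 4 := by exact_mod_cast a3
  omega

/-- tubes with the same piece in a strip -/
theorem strip_card {n : ℕ} {θ r : ℝ} {σ : Nd} (U : Finset Nd)
    (hU : ∀ S ∈ U, S.sg n = σ ∧ |fn θ (fun j => (S.o j : ℝ)) - r| ≤ 1) : U.card ≤ 5 * 2 ^ n := by
  classical
  have hp : (0:ℤ) < 2 ^ n := by positivity
  -- the offsets
  have hinj : ∀ S ∈ U, ∀ S' ∈ U, S.o 0 = S'.o 0 → S.o 1 = S'.o 1 → S = S' := by
    intro S hS S' hS' h0 h1
    have e1 := (hU S hS).1
    have e2 := (hU S' hS').1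
    have t1 : S.τ = S'.τ := by
      have := congrArg Nd.τ (e1.trans e2.symm)
      exact this
    have t2 : S.T = S'.T := by
      have := congrArg Nd.T (e1.trans e2.symm)
      exact this
    have t3 : S.w = S'.w := by
      have := congrArg Nd.w (e1.trans e2.symm)
      exact this
    refine Nd.ext t1 ?_ t2 t3
    funext k
    fin_cases k
    · exact h0
    · exact h1
  have hr : ∀ k, ∀ S ∈ U, S.o k ∈ Finset.Ico (2 ^ n * σ.o k) (2 ^ n * σ.o k + 2 ^ n) := by
    intro k S hS
    have e1 : S.o k / 2 ^ n = σ.o k := by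
      have := congrFun (congrArg Nd.o (hU S hS).1) k
      exact this
    have d1 := Int.mul_ediv_add_emod (S.o k) (2 ^ n)
    have d2 := Int.emod_nonneg (S.o k) hp.ne'
    have d3 := Int.emod_lt_of_pos (S.o k) hp
    rw [e1] at d1
    rw [mem_Ico]
    constructor <;> omega
  have hcardI : ∀ k, (Finset.Ico (2 ^ n * σ.o k) (2 ^ n * σ.o k + 2 ^ n)).card = 2 ^ n := by
    intro k
    rw [Int.card_Ico]
    have : (2 ^ n * σ.o k + 2 ^ n - 2 ^ n * σ.o k : ℤ) = ((2 ^ n : ℕ) : ℤ) := by push_cast; ring
    rw [this, Int.toNat_natCast]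
  have hsc := Real.sin_sq_add_cos_sq θ
  rcases le_or_gt (1 / 2) |Real.cos θ| with hc | hc
  · have h1 := Finset.card_le_mul_card_image_of_maps_to (s := U)
      (t := Finset.Ico (2 ^ n * σ.o 0) (2 ^ n * σ.o 0 + 2 ^ n)) (f := fun S : Nd => S.o 0) (hr 0) 5 (by
        intro z _
        have h2 : ((U.filter fun S => S.o 0 = z).image fun S => S.o 1).card = (U.filter fun S => S.o 0 = z).card := by
          refine Finset.card_image_of_injOn ?_
          intro S hS S' hS' he
          rw [Finset.mem_coe, mem_filter] at hS hS'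
          exact hinj S hS.1 S' hS'.1 (hS.2.trans hS'.2.symm) he
        rw [← h2]
        refine card_near _ (Real.cos θ) (r + Real.sin θ * z) hc fun w hw => ?_
        obtain ⟨S, hS, rfl⟩ := mem_image.1 hw
        rw [mem_filter] at hS
        have h3 := (hU S hS.1).2
        unfold fn at h3
        simp only [hS.2] at h3
        have e : Real.cos θ * (S.o 1 : ℝ) - (r + Real.sin θ * z) = -Real.sin θ * z + Real.cos θ * (S.o 1 : ℝ) - r := by
          ring
        rw [e]
        exact h3)
    rw [hcardI] at h1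
    exact h1
  · have hs : 1 / 2 ≤ |-Real.sin θ| := by
      rw [abs_neg]
      by_contra hcon
      push Not at hcon
      have h1 : Real.sin θ ^ 2 < (1 / 2) ^ 2 := by
        rw [← sq_abs (Real.sin θ)]
        exact pow_lt_pow_left₀ hcon (abs_nonneg _) (by norm_num)
      have h2 : Real.cos θ ^ 2 < (1 / 2) ^ 2 := by
        rw [← sq_abs (Real.cos θ)]
        exact pow_lt_pow_left₀ hc (abs_nonneg _) (by norm_num)
      norm_num at h1 h2
      linarith
    have h1 := Finset.card_le_mul_card_image_of_maps_to (s := U)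
      (t := Finset.Ico (2 ^ n * σ.o 1) (2 ^ n * σ.o 1 + 2 ^ n)) (f := fun S : Nd => S.o 1) (hr 1) 5 (by
        intro z _
        have h2 : ((U.filter fun S => S.o 1 = z).image fun S => S.o 0).card = (U.filter fun S => S.o 1 = z).card := by
          refine Finset.card_image_of_injOn ?_
          intro S hS S' hS' he
          rw [Finset.mem_coe, mem_filter] at hS hS'
          exact hinj S hS.1 S' hS'.1 he (hS.2.trans hS'.2.symm)
        rw [← h2]
        refine card_near _ (-Real.sin θ) (r - Real.cos θ * z) hs fun w hw => ?_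
        obtain ⟨S, hS, rfl⟩ := mem_image.1 hw
        rw [mem_filter] at hS
        have h3 := (hU S hS.1).2
        unfold fn at h3
        simp only [hS.2] at h3
        have e : -Real.sin θ * (S.o 0 : ℝ) - (r - Real.cos θ * z) = -Real.sin θ * (S.o 0 : ℝ) + Real.cos θ * z - r := by
          ring
        rw [e]
        exact h3)
    rw [hcardI] at h1
    exact h1

end Vale.Agent.P106.R.H425
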