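import Vale.Agent.P106.R.E.RG
import Vale.Agent.P106.R.H425.Fin2
import Vale.Agent.P106.R.H425.Num
import Vale.Agent.P106.R.H425.Strip
import Vale.Agent.P106.R.H616.R0

/-!
# P106 / R, copy of P122 / H425 : RG2 (helper425)

From a sequence of valid structures `W` whose refinements are dense, with `RegA` for its system of flags, and the frames
`E8`, to a refinement with `RegB`.
-/

set_option autoImplicit false

namespace Vale.Agent.P106.R.H425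

open Filter Topology Finset Vale.Agent.P127 Vale.Agent.P127.Stk Vale.Agent.P127.U Vale.Agent.P127.U.Sys
  Vale.Agent.P106.R.C2 Vale.Agent.P106.R.E Vale.Agent.P106.R.H610
open Vale.Agent.P106.W (Cbx)

variable {K : ℕ} {Z : CS K}

/-! ### the inclusion of flags -/

/-- the inclusion of the flags of a refinement -/
noncomputable def incl {W' W : VS Z} (hle : ∀ i, (W'.V i).Le (W.V i)) : ∀ i, W'.sys.Ω i → W.sys.Ω i :=
  fun i ω => ⟨ω.1, Fg_le (hle i) K ω.2⟩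

theorem incl_inj {W' W : VS Z} (hle : ∀ i, (W'.V i).Le (W.V i)) (i : ℕ) : Function.Injective (incl hle i) := by
  intro a b h
  exact Subtype.ext (congrArg (fun x : {f // f ∈ W.fl i} => x.1) h)

/-- the uniform law of a big refinement is dense -/
noncomputable def dn {W' W : VS Z} (hle : ∀ i, (W'.V i).Le (W.V i))
    (hb : Z.Big fun i => ((W'.fl i).card : ℝ) / (W.fl i).card) : Dns W'.sys W.sys where
  π := incl hle
  L_eq := rfl
  dom := by
    classical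
    intro ε hε
    filter_upwards [hb ε hε] with i hi ω
    have hp' : (0:ℝ) < (W'.fl i).card := by exact_mod_cast (W'.fl_ne i).card_pos
    have hp : (0:ℝ) < (W.fl i).card := by exact_mod_cast (W.fl_ne i).card_pos
    have h1 : (W'.sys.P i).pr (incl hle i) ω ≤ 1 / (W'.fl i).card := by
      have e := uL_pr (W'.fl_ne i) (incl hle i) ω
      have e' : (W'.sys.P i).pr (incl hle i) ω =
          ((univ.filter fun f : {f // f ∈ W'.fl i} => incl hle i f = ω).card : ℝ) / (W'.fl i).card := e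
      rw [e']
      refine div_le_div_of_nonneg_right ?_ hp'.le
      have : (univ.filter fun f : {f // f ∈ W'.fl i} => incl hle i f = ω).card ≤ 1 := by
        rw [Finset.card_le_one]
        intro a ha b hb
        exact incl_inj hle i ((mem_filter.1 ha).2.trans (mem_filter.1 hb).2.symm)
      exact_mod_cast this
    refine h1.trans ?_
    have h2 : (W.sys.P i).w ω = 1 / ((W.fl i).card : ℝ) := rfl
    have h3 : W.sys.L i = K * Z.n i := rfl
    rw [h2, h3]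
    rw [le_div_iff₀ hp] at hi
    have h4 : (2:ℝ) ^ (-(ε * Z.n i)) * (2:ℝ) ^ (ε * Z.n i) = 1 := by
      rw [← Real.rpow_add (by norm_num)]; simp
    have h5 : (2:ℝ) ^ (ε * Z.n i) ≤ (2:ℝ) ^ (ε * ((K * Z.n i : ℕ) : ℝ)) := by
      apply Real.rpow_le_rpow_of_exponent_le (by norm_num)
      apply mul_le_mul_of_nonneg_left _ hε.le
      exact_mod_cast Nat.le_mul_of_pos_left _ Z.K1
    have h6 : (0:ℝ) < (2:ℝ) ^ (ε * Z.n i) := Real.rpow_pos_of_pos (by norm_num) _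
    rw [mul_one_div, div_le_div_iff₀ hp' hp, one_mul]
    calc ((W.fl i).card : ℝ) = ((2:ℝ) ^ (-(ε * Z.n i)) * (2:ℝ) ^ (ε * Z.n i)) * (W.fl i).card := by rw [h4, one_mul]
      _ = ((2:ℝ) ^ (-(ε * Z.n i)) * (W.fl i).card) * (2:ℝ) ^ (ε * Z.n i) := by ring
      _ ≤ (W'.fl i).card * (2:ℝ) ^ (ε * Z.n i) := mul_le_mul_of_nonneg_right hi h6.le
      _ ≤ (W'.fl i).card * (2:ℝ) ^ (ε * ((K * Z.n i : ℕ) : ℝ)) := mul_le_mul_of_nonneg_left h5 hp'.le
      _ = (2:ℝ) ^ (ε * ((K * Z.n i : ℕ) : ℝ)) * (W'.fl i).card := by ring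

theorem dn_spt {W' W : VS Z} (hle : ∀ i, (W'.V i).Le (W.V i))
    (hb : Z.Big fun i => ((W'.fl i).card : ℝ) / (W.fl i).card) :
    ∀ i ω, 0 < (W'.sys.P i).w ω → 0 < (W.flg.S.P i).w ((dn hle hb).π i ω) := fun i _ _ => W.sys_pos i _

/-! ### counts on the support from counts in the reached sets -/

theorem cnt_N {F : Flg K} {c : ℕ} {D : ℕ → Finset Nd} {φ : ℕ → Nd → ℝ} {β : ℝ}
    (hD : ∀ i ω, 0 < (F.S.P i).w ω → F.N c i ω ∈ D i)
    (h : ∀ ε : ℝ, 0 < ε → ∀ᶠ i in (uf : Filter ℕ), ∀ S ∈ D i, ∀ (U : Finset Nd) (r : ℝ), U ⊆ D i →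
      (∀ S₁ ∈ U, S₁.sg (F.n i) = S.sg (F.n i) ∧ |fn (φ i (S.sg (F.n i))) (fun j => (S₁.o j : ℝ)) - r| ≤ 1) →
      (U.card : ℝ) ≤ (2 : ℝ) ^ ((β + ε) * F.S.L i)) :
    Cnt F.S (F.N c) (Sys.pr (F.sg c) fun i ω => ⌊fn (φ i (F.sg c i ω)) fun j => ((F.N c i ω).o j : ℝ)⌋) β := by
  classical
  intro ε hε
  filter_upwards [h ε hε] with i hi ω hω
  set S := F.N c i ω with hS
  set z : ℤ := ⌊fn (φ i (S.sg (F.n i))) fun j => (S.o j : ℝ)⌋ with hz
  refine ⟨(D i).filter fun S₁ => S₁.sg (F.n i) = S.sg (F.n i) ∧ ⌊fn (φ i (S.sg (F.n i))) fun j => (S₁.o j : ℝ)⌋ = z,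
    hi S (hD i ω hω) _ (z + 1 / 2) (filter_subset _ _) ?_, ?_⟩
  · intro S₁ h1
    obtain ⟨-, h2, h3⟩ := mem_filter.1 h1
    refine ⟨h2, ?_⟩
    have a1 := Int.floor_le (fn (φ i (S.sg (F.n i))) fun j => (S₁.o j : ℝ))
    have a2 := Int.lt_floor_add_one (fn (φ i (S.sg (F.n i))) fun j => (S₁.o j : ℝ))
    rw [h3] at a1 a2
    rw [abs_le]
    constructor <;> linarith
  · intro ω' hω' e
    have e1 : F.sg c i ω' = F.sg c i ω := congrArg Prod.fst e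
    have e2 : (⌊fn (φ i (F.sg c i ω')) fun j => ((F.N c i ω').o j : ℝ)⌋ : ℤ) =
      ⌊fn (φ i (F.sg c i ω)) fun j => ((F.N c i ω).o j : ℝ)⌋ := congrArg Prod.snd e
    rw [e1] at e2
    exact mem_filter.2 ⟨hD i ω' hω', e1, e2⟩

theorem cnt_Y {F : Flg K} {c : ℕ} {D : ℕ → Finset Nd} {G : ℕ → Nd → Finset Z2} {φ : ℕ → Nd → ℝ} {β : ℝ}
    (hD : ∀ i ω, 0 < (F.S.P i).w ω → F.N c i ω ∈ D i)
    (hG : ∀ i ω, 0 < (F.S.P i).w ω → F.Y (c + 1) i ω ∈ G i (F.sg c i ω))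
    (h : ∀ ε : ℝ, 0 < ε → ∀ᶠ i in (uf : Filter ℕ), ∀ S ∈ D i, ∀ E : Finset Z2, E ⊆ G i (S.sg (F.n i)) →
      (∀ t ∈ E, ∀ t' ∈ E, 2 ^ ((c + 1) * F.n i) *
        |fn (φ i (S.sg (F.n i))) (F.s i (c + 1) t) - fn (φ i (S.sg (F.n i))) (F.s i (c + 1) t')| ≤ 1) →
      (E.card : ℝ) ≤ (2 : ℝ) ^ ((β + ε) * F.S.L i)) :
    Cnt F.S (F.Y (c + 1))
      (Sys.pr (F.N c) fun i ω => ⌊2 ^ ((c + 1) * F.n i) * fn (φ i (F.sg c i ω)) (F.s i (c + 1) (F.Y (c + 1) i ω))⌋) β := by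
  classical
  intro ε hε
  filter_upwards [h ε hε] with i hi ω hω
  set S := F.N c i ω with hS
  set z : ℤ := ⌊2 ^ ((c + 1) * F.n i) * fn (φ i (S.sg (F.n i))) (F.s i (c + 1) (F.Y (c + 1) i ω))⌋ with hz
  refine ⟨(G i (S.sg (F.n i))).filter fun t => ⌊2 ^ ((c + 1) * F.n i) * fn (φ i (S.sg (F.n i))) (F.s i (c + 1) t)⌋ = z,
    hi S (hD i ω hω) _ (filter_subset _ _) ?_, ?_⟩
  · intro t ht t' ht'
    have h1 := (mem_filter.1 ht).2
    have h2 := (mem_filter.1 ht').2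
    have a := Int.abs_sub_lt_one_of_floor_eq_floor (h1.trans h2.symm)
    rw [← mul_sub, abs_mul, abs_of_nonneg (show (0:ℝ) ≤ 2 ^ ((c + 1) * F.n i) by positivity)] at a
    exact a.le
  · intro ω' hω' e
    have e0 : F.N c i ω' = F.N c i ω := congrArg Prod.fst e
    have e1 : F.sg c i ω' = F.sg c i ω := congrArg (fun S : Nd => S.sg (F.n i)) e0
    have e2 : (⌊2 ^ ((c + 1) * F.n i) * fn (φ i (F.sg c i ω')) (F.s i (c + 1) (F.Y (c + 1) i ω'))⌋ : ℤ) =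
      ⌊2 ^ ((c + 1) * F.n i) * fn (φ i (F.sg c i ω)) (F.s i (c + 1) (F.Y (c + 1) i ω))⌋ := congrArg Prod.snd e
    rw [e1] at e2
    have h1 := hG i ω' hω'
    rw [e1] at h1
    exact mem_filter.2 ⟨h1, e2⟩

/-! ### the refinement as a sequence -/

theorem big_q2 (Z : CS K) : Z.Big fun i => (1:ℝ) / (q2 (Z.n i) K : ℕ) := by
  have h1 : Z.Big fun i => (1 / 2 ^ (K + 1) : ℝ) * ((2 * Z.n i + 1 : ℝ)⁻¹) ^ (2 * (K + 1) * (K + 1)) :=
    (CS.Big.const (by positivity)).mul ((CS.Big.inv_lin 2 1 (by norm_num) (by norm_num)).pow _)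
  refine h1.mono (Eventually.of_forall fun i => ?_)
  have h2 : ((q2 (Z.n i) K : ℕ) : ℝ) ≤ 2 ^ (K + 1) * (2 * Z.n i + 1) ^ (2 * (K + 1) * (K + 1)) := by
    exact_mod_cast q2_le (Z.n i) K
  have h3 : (0:ℝ) < (q2 (Z.n i) K : ℕ) := by exact_mod_cast q2_pos (Z.n i) K
  calc (1 / 2 ^ (K + 1) : ℝ) * ((2 * Z.n i + 1 : ℝ)⁻¹) ^ (2 * (K + 1) * (K + 1))
      = 1 / (2 ^ (K + 1) * (2 * Z.n i + 1) ^ (2 * (K + 1) * (K + 1))) := by
        rw [inv_pow, one_div, one_div, ← mul_inv]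
    _ ≤ 1 / (q2 (Z.n i) K : ℕ) := one_div_le_one_div_of_le h3 h2

/-- **RG2 refinement**, sequence form -/
theorem exists_ref (W : VS Z) (bad : ℕ → ℕ → Nd → Prop) (φ : ℕ → ℕ → Nd → ℝ) :
    ∃ (W' : VS Z) (u : ℕ → ℕ → ℕ), (∀ i, (W'.V i).Le (W.V i)) ∧ W'.Le W ∧ (∀ i, W'.a i = W.a i) ∧
      (∀ i c, c ≤ K → (∀ S ∈ (W'.V i).D (Z.F i).s (Z.n i) c, bad c i S) ∨
        ∀ S ∈ (W'.V i).D (Z.F i).s (Z.n i) c, ¬ bad c i S) ∧
      (∀ i c, 1 ≤ c → c < K → (2:ℝ) ^ u i c ≤ ((2 * ⌈3 * Z.C⌉₊ + 1) ^ 2 * (4 * ⌈Z.C⌉₊ + 2) : ℕ) * 2 ^ Z.n i) ∧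
      (∀ i c, 1 ≤ c → c < K → ∀ S ∈ (W'.V i).D (Z.F i).s (Z.n i) c,
        (∀ (U : Finset Nd) (r : ℝ), U ⊆ (W'.V i).D (Z.F i).s (Z.n i) c →
          (∀ S₁ ∈ U, S₁.sg (Z.n i) = S.sg (Z.n i) ∧ |fn (φ c i (S.sg (Z.n i))) (fun j => (S₁.o j : ℝ)) - r| ≤ 1) →
          (U.card : ℝ) * (W'.ρ i * W.a i c) ^ 2 ≤ 48 * Z.C * 2 ^ (Z.n i + u i c + W'.J i c) * W.a i (c + 1) ^ 2) ∧
        (∀ E : Finset Z2, E ⊆ (W'.V i).G c (S.sg (Z.n i)) →
          (∀ t ∈ E, ∀ t' ∈ E, 2 ^ ((c + 1) * Z.n i) *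
            |fn (φ c i (S.sg (Z.n i))) ((Z.F i).s (c + 1) t) - fn (φ c i (S.sg (Z.n i))) ((Z.F i).s (c + 1) t')| ≤ 1) →
          (E.card : ℝ) * 2 ^ u i c ≤ ((2 * ⌈3 * Z.C⌉₊ + 1) ^ 2 : ℕ) * 2 ^ (W.J i c + 1))) := by
  classical
  have hC : (0:ℝ) ≤ Z.C := le_trans zero_le_one Z.C1
  have key := fun i => rg2_fin (Z.F i) hC (W.V i) (W.ρ i) (W.a i) (W.J i) (W.ok i) (W.ρpos i)
    (fun c S => bad c i S) (fun c σ => φ c i σ) (fun _ => 1) (fun _ _ => zero_le_one)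
  choose V' J' u h1 h2 h3 h4 h5 h6 h7 using key
  have hcard : ∀ i, ((W.V i).X.card : ℝ) ≤ (q2 (Z.n i) K : ℕ) * (V' i).X.card := by
    intro i
    have := h7 i
    simpa using this
  have hne : ∀ i, (V' i).X.Nonempty := by
    intro i
    rw [← Finset.card_pos]
    by_contra hc
    have h0 : (V' i).X.card = 0 := by omega
    have h8 := hcard i
    rw [h0, Nat.cast_zero, mul_zero] at h8
    have h9 : (0:ℝ) < (W.V i).X.card := by exact_mod_cast (W.ne i).card_pos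
    linarith
  have hq : ∀ i, (0:ℝ) < (q2 (Z.n i) K : ℕ) := fun i => by exact_mod_cast q2_pos (Z.n i) K
  have hq1 : ∀ i, (1:ℝ) ≤ (q2 (Z.n i) K : ℕ) := fun i => by exact_mod_cast q2_pos (Z.n i) K
  let W' : VS Z :=
    { V := V'
      ρ := fun i => W.ρ i / (q2 (Z.n i) K : ℕ)
      a := W.a
      J := J'
      ok := h2
      ne := hne
      tim := fun i x hx => W.tim i x ((h1 i).1 hx)
      ρpos := fun i => div_pos (W.ρpos i) (hq i)
      ρ1 := fun i => (div_le_self (W.ρpos i).le (hq1 i)).trans (W.ρ1 i)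
      ρbig := (W.ρbig.mul (big_q2 Z)).mono (Eventually.of_forall fun i => by rw [mul_one_div]) }
  refine ⟨W', u, h1, ⟨Eventually.of_forall h1, Eventually.of_forall fun _ => rfl, ?_⟩, fun _ => rfl, fun i c hc => h3 i c hc,
    fun i c hc1 hcK => ?_, fun i c hc1 hcK S hS => ?_⟩
  · refine (big_q2 Z).mono (Eventually.of_forall fun i => ?_)
    have h9 : (0:ℝ) < (W.V i).X.card := by exact_mod_cast (W.ne i).card_pos
    show (1:ℝ) / (q2 (Z.n i) K : ℕ) ≤ ((V' i).X.card : ℝ) / (W.V i).X.card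
    rw [div_le_div_iff₀ (hq i) h9, one_mul, mul_comm]
    exact hcard i
  · have h8 := h5 i c hc1 hcK (H616.D_nonempty (h2 i) (hne i) c hcK.le)
    have h9 : ((2 ^ u i c : ℕ) : ℝ) ≤ ((2 * ⌈3 * Z.C⌉₊ + 1) ^ 2 * ((4 * ⌈Z.C⌉₊ + 2) * 2 ^ Z.n i) : ℕ) := by
      exact_mod_cast h8
    push_cast at h9 ⊢
    linarith
  · obtain ⟨g1, g2⟩ := h6 i c hc1 hcK S hS
    refine ⟨g1, fun E hE hd => ?_⟩
    exact_mod_cast g2 E hE hd

/-! ### the frames -/

/-- the piece of radius `c + 1` and length `2 c` with the cap of level `c - 1`, as a function of the piece `sg` -/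
noncomputable def sgUp (n h c : ℕ) (σ : Nd) : Nd := ⟨fun k => σ.τ k / 2 ^ n, σ.o, σ.T,
  σ.w + ⌊(∑ k, (-((2:ℝ) ^ ((c + 1) * n) * (σ.o k : ℝ)) *
      (W.s0 n (2 * c - (c + 1)) (fun k => σ.τ k / 2 ^ n) k - W.s0 n c σ.τ k) +
    (σ.T : ℝ) * 2 ^ (2 * c * n) *
      (W.s0 n (2 * c - (c + 1)) (fun k => σ.τ k / 2 ^ n) k ^ 2 - W.s0 n c σ.τ k ^ 2) / 2)) / 2 ^ (h * n)⌋⟩

theorem sig_eq (F : Flg K) (c i : ℕ) (ω : F.S.Ω i) : F.sig c (c + 1) i ω = sgUp (F.n i) F.h c (F.sg c i ω) := by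
  unfold Flg.sig Flg.sg sgUp Nd.sg Vale.Agent.P106.R.E.wsg
  simp only [Nat.add_sub_cancel_left, one_mul]

/-- frames as functions of the piece `sg` -/
theorem exists_frame {κ C₀ c1 : ℝ} (h8 : E8 κ C₀) {F : Flg K} {J θ H e : ℕ → ℝ} {B : ℕ → F.S.RV Cbx} {kk jj : ℕ → ℕ → ℕ}
    (hK : 1 ≤ K) (hA : RegA F J θ H e B kk jj) (hc1 : 0 < c1) (hκ : 1 / K ≤ κ * c1) (hC₀ : C₀ / K ≤ c1) :
    ∃ φ : ℕ → ℕ → Nd → ℝ, ∀ c, 1 ≤ c → c < K → Thin F e jj κ c1 c →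
      Rare F.S (fun i ω => (2 : ℝ) ^ (-(c1 / 4 * F.S.L i)) < |Real.sin (F.wd c (B c) i ω - φ c i (F.sg c i ω))|) := by
  classical
  have h : ∀ c, ∃ ψ : ℕ → Nd → ℝ, 1 ≤ c → c < K → Thin F e jj κ c1 c →
      Rare F.S (fun i ω => (2 : ℝ) ^ (-(c1 / 4 * F.S.L i)) < |Real.sin (F.wd c (B c) i ω - ψ i (F.sg c i ω))|) := by
    intro c
    by_cases hc : 1 ≤ c ∧ c < K ∧ Thin F e jj κ c1 c
    · obtain ⟨g1, g2, g3⟩ := hc
      obtain ⟨ψ, hψ, -⟩ := h8 F J θ H e B kk jj hK hA c1 c c (c + 1) hc1 g1 le_rfl (by omega) (by omega) (by omega)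
        (by have := F.h2; omega) (by push_cast; rw [add_sub_cancel_left]; exact hκ) hC₀ g3 g3
      refine ⟨fun i σ => ψ i (sgUp (F.n i) F.h c σ), fun _ _ _ => ?_⟩
      simp only [sig_eq] at hψ
      exact hψ
    · exact ⟨fun _ _ => 0, fun a b c' => absurd ⟨a, b, c'⟩ hc⟩
  choose φ hφ using h
  exact ⟨φ, hφ⟩

/-! ### RG2 -/

/-- **RG2** -/
theorem rg2 {κ C₀ c1 : ℝ} (h8 : E8 κ C₀) (W : VS Z) {J θ H e : ℕ → ℝ} {B : ℕ → W.sys.RV Cbx} {kk jj : ℕ → ℕ → ℕ}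
    (hA : RegA W.flg J θ H e B kk jj) (hc1 : 0 < c1) (hκ : 1 / K ≤ κ * c1) (hC₀ : C₀ / K ≤ c1)
    (hJ : ∀ c, c < K → ∀ ε : ℝ, 0 < ε → ∀ᶠ i in (uf : Filter ℕ), (W.J i c : ℝ) ≤ (J c + ε) * Z.L i)
    (hθ : ∀ c, c < K → ∀ ε : ℝ, 0 < ε → ∀ᶠ i in (uf : Filter ℕ),
      (2 : ℝ) ^ ((θ c + J c / 2 - ε) * Z.L i) * W.a i (c + 1) ≤ W.a i c ∨ θ c ≤ ε)
    (hdens : ∀ W' : VS Z, W'.Le W → Z.Big fun i => ((W'.fl i).card : ℝ) / (W.fl i).card) :
    ∃ (W' : VS Z) (hle : ∀ i, (W'.V i).Le (W.V i)) (_ : W'.Le W)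
      (hb : Z.Big fun i => ((W'.fl i).card : ℝ) / (W.fl i).card) (φ : ℕ → ℕ → Nd → ℝ) (JF : ℕ → ℝ),
      RegB (W.flg.res (dn hle hb) (dn_spt hle hb)) J θ H e (fun c => (dn hle hb).pull (B c)) kk jj κ c1 φ JF := by
  classical
  have hK : 1 ≤ K := Z.K1
  obtain ⟨φ, hφ⟩ := exists_frame h8 hK hA hc1 hκ hC₀
  -- the bad event and the bad nodes
  set Ev : ℕ → ∀ i, W.sys.Ω i → Prop := fun c i ω =>
    (2 : ℝ) ^ (-(c1 / 4 * W.sys.L i)) < |Real.sin (W.flg.wd c (B c) i ω - φ c i (W.flg.sg c i ω))| with hEv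
  set bad : ℕ → ℕ → Nd → Prop := fun c i S => ∃ ω : W.sys.Ω i, W.flg.N c i ω = S ∧ Ev c i ω with hbad
  obtain ⟨W', u, hle, hLe, ha, hgb, hu, hcnt⟩ := exists_ref W bad φ
  have hb := hdens W' hLe
  set d := dn hle hb with hd
  set F' := W.flg.res d (dn_spt hle hb) with hF'
  have hFL : ∀ i, F'.S.L i = K * Z.n i := fun i => rfl
  have hLtop : Tendsto (fun i => K * Z.n i) (uf : Filter ℕ) atTop :=
    Z.ntop.const_mul_atTop' (lt_of_lt_of_le Nat.zero_lt_one Z.K1)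
  have hZL : ∀ i, Z.L i = ((K * Z.n i : ℕ) : ℝ) := fun i => rfl
  -- nodes of the flags
  have hN : ∀ c, c ≤ K → ∀ i ω, F'.N c i ω ∈ (W'.V i).D (Z.F i).s (Z.n i) c := fun c hc i ω => nd_D (W'.ok i) hc ω.2
  have hY : ∀ c, c < K → ∀ i ω, F'.Y (c + 1) i ω ∈ (W'.V i).G c (F'.sg c i ω) := fun c hc i ω => nd_G (W'.ok i) hc ω.2
  -- the limits of `u`
  have hJF : ∀ c, 1 ≤ c → c < K → UB (fun i => (u i c : ℝ) / ((K * Z.n i : ℕ) : ℝ)) ∧
      0 ≤ ulim (fun i => (u i c : ℝ) / ((K * Z.n i : ℕ) : ℝ)) ∧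
      ulim (fun i => (u i c : ℝ) / ((K * Z.n i : ℕ) : ℝ)) ≤ 1 / K := fun c h1 h2 =>
    num_JF (L := fun i => K * Z.n i) hK hLtop (fun _ => rfl) (Eventually.of_forall fun i => hu i c h1 h2)
  refine ⟨W', hle, hLe, hb, φ, fun c => if 1 ≤ c ∧ c < K then ulim (fun i => (u i c : ℝ) / ((K * Z.n i : ℕ) : ℝ)) else 0,
    ⟨hA.res d (dn_spt hle hb), ?_, ?_, ?_, ?_, ?_⟩⟩
  · intro c hc
    show (0:ℝ) ≤ if 1 ≤ c ∧ c < K then ulim (fun i => (u i c : ℝ) / ((K * Z.n i : ℕ) : ℝ)) else 0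
    split_ifs with h
    · exact (hJF c h.1 h.2).2.1
    · exact le_rfl
  · intro c hc
    show (if 1 ≤ c ∧ c < K then ulim (fun i => (u i c : ℝ) / ((K * Z.n i : ℕ) : ℝ)) else 0) ≤ 1 / (K:ℝ)
    split_ifs with h
    · exact (hJF c h.1 h.2).2.2
    · positivity
  · -- frames
    intro c hc1' hcK ht
    have ht' : Thin W.flg e jj κ c1 c := (Thin_res (F := W.flg) (dn hle hb) (dn_spt hle hb) e jj κ c1 c).1 ht
    have hR := (hφ c hc1' hcK ht').res d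
    have h1 := hR.not_all
    rw [← Ultrafilter.eventually_not] at h1
    filter_upwards [h1, hA.Wfn c hcK.le] with i h2 h3 ω hω
    push Not at h2
    obtain ⟨ω₁, hω₁, h4⟩ := h2
    rcases hgb i c hcK.le with h5 | h5
    · -- all bad: impossible
      exfalso
      obtain ⟨ω₂, h6, h7⟩ := h5 _ (hN c hcK.le i ω₁)
      have h8' : W.flg.wd c (B c) i ω₂ = W.flg.wd c (B c) i (d.π i ω₁) := by
        have h10 : B c i ω₂ = B c i (d.π i ω₁) := h3 ω₂ (d.π i ω₁) (W.sys_pos i _) (W.sys_pos i _) h6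
        have h11 : W.flg.N c i ω₂ = W.flg.N c i (d.π i ω₁) := h6
        unfold Flg.wd
        rw [h10, h11]
      have h9 : W.flg.sg c i ω₂ = W.flg.sg c i (d.π i ω₁) := congrArg (fun S : Nd => S.sg (W.flg.n i)) h6
      have h7' : (2 : ℝ) ^ (-(c1 / 4 * W.sys.L i)) < |Real.sin (W.flg.wd c (B c) i ω₂ - φ c i (W.flg.sg c i ω₂))| := h7
      rw [h8', h9] at h7'
      exact absurd h7' (not_lt.2 h4)
    · have h6 := h5 _ (hN c hcK.le i ω)
      by_contra hcon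
      push Not at hcon
      exact h6 ⟨d.π i ω, rfl, hcon⟩
  · -- B2
    intro c hc1' hcK _
    have hif : (if 1 ≤ c ∧ c < K then ulim (fun i => (u i c : ℝ) / ((K * Z.n i : ℕ) : ℝ)) else 0) =
      ulim (fun i => (u i c : ℝ) / ((K * Z.n i : ℕ) : ℝ)) := if_pos ⟨hc1', hcK⟩
    simp only [hif]
    obtain ⟨hub, hJF0, -⟩ := hJF c hc1' hcK
    have h2 := ulim_two (L := fun i => K * Z.n i) (x := fun i => (u i c : ℝ)) hub hLtop
    rcases le_or_gt (θ c) 0 with hθ0 | hθ0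
    · -- the trivial count
      refine cnt_N (D := fun i => (W'.V i).D (Z.F i).s (Z.n i) c) (φ := φ c) (fun i ω _ => hN c hcK.le i ω) ?_
      intro ε hε
      filter_upwards [const_le_pow (L := fun i => K * Z.n i) hLtop 5 hε] with i hi S hS U r hU hr
      have h5 : U.card ≤ 5 * 2 ^ (Z.n i) := strip_card U hr
      have h6 : (U.card : ℝ) ≤ 5 * 2 ^ (Z.n i) := by exact_mod_cast h5
      refine h6.trans ?_
      have hKR : (0:ℝ) < K := by exact_mod_cast hK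
      have h7 : (2:ℝ) ^ (Z.n i) = (2:ℝ) ^ (1 / K * ((K * Z.n i : ℕ) : ℝ)) := by
        rw [← Real.rpow_natCast]
        congr 1
        push_cast
        field_simp
      calc (5:ℝ) * 2 ^ (Z.n i) ≤ (2:ℝ) ^ (ε * ((K * Z.n i : ℕ) : ℝ)) * (2:ℝ) ^ (1 / K * ((K * Z.n i : ℕ) : ℝ)) := by
            rw [h7]
            exact mul_le_mul_of_nonneg_right hi (by positivity)
        _ = (2:ℝ) ^ ((1 / K + ε) * ((K * Z.n i : ℕ) : ℝ)) := by
            rw [← Real.rpow_add (by norm_num)]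
            congr 1
            ring
        _ ≤ _ := by
            apply Real.rpow_le_rpow_of_exponent_le (by norm_num)
            apply mul_le_mul_of_nonneg_right _ (Nat.cast_nonneg _)
            linarith
    have hab : ∀ ε : ℝ, 0 < ε → ∀ᶠ i in (uf : Filter ℕ),
        (2 : ℝ) ^ ((θ c + J c / 2 - ε) * ((K * Z.n i : ℕ) : ℝ)) * W.a i (c + 1) ≤ W.a i c := by
      intro ε hε
      filter_upwards [hθ c hcK (min ε (θ c / 2)) (lt_min hε (by linarith))] with i hi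
      rcases hi with hi | hi
      · refine le_trans (mul_le_mul_of_nonneg_right ?_ ((W.ok i).apos _ (by omega)).le) hi
        apply Real.rpow_le_rpow_of_exponent_le (by norm_num)
        rw [hZL]
        apply mul_le_mul_of_nonneg_right _ (Nat.cast_nonneg _)
        have := min_le_left ε (θ c / 2)
        linarith
      · exfalso
        have := min_le_right ε (θ c / 2)
        linarith
    have hJ' : ∀ ε : ℝ, 0 < ε → ∀ᶠ i in (uf : Filter ℕ), (W'.J i c : ℝ) ≤ (J c + ε) * ((K * Z.n i : ℕ) : ℝ) := by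
      intro ε hε
      filter_upwards [hJ c hcK ε hε] with i hi
      have hok := W'.ok i
      rw [ha i] at hok
      have h3 : W'.J i c ≤ W.J i c := H616.J_mono (W.ok i) hok (hle i) (W'.ne i) hcK
      exact le_trans (by exact_mod_cast h3) hi
    have hnum := num_B2 (L := fun i => K * Z.n i) (n := Z.n) (u := fun i => u i c) (J' := fun i => W'.J i c)
      (ρ' := W'.ρ) (a := fun i => W.a i c) (b := fun i => W.a i (c + 1)) (θ := θ c) (Jn := J c)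
      (JF := ulim (fun i => (u i c : ℝ) / ((K * Z.n i : ℕ) : ℝ))) (C := 48 * Z.C) hK hLtop (fun _ => rfl)
      W'.ρpos (fun i => (W.ok i).apos _ (by omega))
      (fun ε hε => by
        filter_upwards [W'.ρbig ε hε] with i hi
        refine le_trans (Real.rpow_le_rpow_of_exponent_le (by norm_num) ?_) hi
        have h4 : (Z.n i : ℝ) ≤ ((K * Z.n i : ℕ) : ℝ) := by exact_mod_cast Nat.le_mul_of_pos_left _ hK
        have := mul_le_mul_of_nonneg_left h4 hε.le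
        linarith)
      hab hJ' (fun ε hε => (h2 ε hε).mono fun i hi => hi.2)
    refine cnt_N (D := fun i => (W'.V i).D (Z.F i).s (Z.n i) c) (φ := φ c) (fun i ω _ => hN c hcK.le i ω) ?_
    intro ε hε
    filter_upwards [hnum ε hε] with i hi S hS U r hU hr
    exact hi _ ((hcnt i c hc1' hcK S hS).1 U r hU hr)
  · -- C2
    intro c hc1' hcK _
    have hif : (if 1 ≤ c ∧ c < K then ulim (fun i => (u i c : ℝ) / ((K * Z.n i : ℕ) : ℝ)) else 0) =
      ulim (fun i => (u i c : ℝ) / ((K * Z.n i : ℕ) : ℝ)) := if_pos ⟨hc1', hcK⟩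
    simp only [hif]
    obtain ⟨hub, -, -⟩ := hJF c hc1' hcK
    have h2 := ulim_two (L := fun i => K * Z.n i) (x := fun i => (u i c : ℝ)) hub hLtop
    have hnum := num_C2 (L := fun i => K * Z.n i) (u := fun i => u i c) (J := fun i => W.J i c) (Jn := J c)
      (JF := ulim (fun i => (u i c : ℝ) / ((K * Z.n i : ℕ) : ℝ))) (C := ((2 * ⌈3 * Z.C⌉₊ + 1) ^ 2 : ℕ)) hLtop
      (fun ε hε => hJ c hcK ε hε) (fun ε hε => (h2 ε hε).mono fun i hi => hi.1)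
    refine cnt_Y (D := fun i => (W'.V i).D (Z.F i).s (Z.n i) c) (G := fun i => (W'.V i).G c) (φ := φ c)
      (fun i ω _ => hN c hcK.le i ω) (fun i ω _ => hY c hcK i ω) ?_
    intro ε hε
    filter_upwards [hnum ε hε] with i hi S hS E hE hd
    exact hi _ ((hcnt i c hc1' hcK S hS).2 E hE hd)

/-- the local gain : lower bound of the quotients of the levels -/
theorem thn_spec (W : VS Z) {c : ℕ} (hc : c < K) {ε : ℝ} (hε : 0 < ε) : ∀ᶠ i in (uf : Filter ℕ),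
    (2 : ℝ) ^ ((thn W c + W.Jn c / 2 - ε) * Z.L i) * W.a i (c + 1) ≤ W.a i c ∨ thn W c ≤ ε := by
  have hC : (0:ℝ) < Z.C := lt_of_lt_of_le one_pos Z.C1
  set x : ℕ → ℝ := fun i => Real.logb 2 (W.a i c / W.a i (c + 1)) - (W.J i c : ℝ) / 2 with hx
  -- boundedness
  have hOL : Z.OL fun i => max 0 (x i) := by
    refine CS.OL.of_le (c := 3) (Eventually.of_forall fun i => le_max_left _ _) ?_
    filter_upwards [CS.const_le (Z := Z) (Real.logb 2 (4 * Z.C)) one_pos, W.ρbig.neg_log_le one_pos] with i h1 h2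
    have hn := Z.n_le_L i
    have hL0 : 0 ≤ Z.L i := le_trans (Nat.cast_nonneg _) hn
    refine max_le (by linarith) ?_
    obtain ⟨f, hf⟩ := W.fl_ne i
    have hS := nd_D (W.ok i) hc.le hf
    have h3 := (W.ok i).L (W.ρpos i) hC.le hc hS
    have a0 := (W.ok i).apos c hc.le
    have a1 := (W.ok i).apos (c + 1) (by omega)
    have r0 := W.ρpos i
    have h4 : W.a i c / W.a i (c + 1) ≤ 4 * Z.C * 2 ^ (W.J i c) / W.ρ i := by
      rw [div_le_div_iff₀ a1 r0]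
      linarith
    have h5 := Real.logb_le_logb_of_le (by norm_num : (1:ℝ) < 2) (by positivity) h4
    rw [Real.logb_div (by positivity) r0.ne', Real.logb_mul (by positivity) (by positivity),
      Real.logb_pow, Real.logb_self_eq_one (by norm_num), mul_one] at h5
    have h6 : (W.J i c : ℝ) ≤ 2 * Z.n i := by exact_mod_cast W.J_le i c hc
    simp only [hx]
    linarith
  filter_upwards [CS.lg_le hOL (half_pos hε), CS.lg_le (W.J_OL hc) hε, Z.L_pos] with i h1 h2 h3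
  have e1 : Z.lg (fun i => max 0 (x i)) = thn W c := rfl
  have e2 : Z.lg (fun i => (W.J i c : ℝ)) = W.Jn c := rfl
  rw [e1] at h1
  rw [e2] at h2
  have a0 := (W.ok i).apos c hc.le
  have a1 := (W.ok i).apos (c + 1) (by omega)
  rcases le_or_gt ((thn W c - ε / 2) * Z.L i) (x i) with h4 | h4
  · left
    have h5 : (thn W c + W.Jn c / 2 - ε) * Z.L i ≤ Real.logb 2 (W.a i c / W.a i (c + 1)) := by
      simp only [hx] at h4
      nlinarith
    rw [Real.le_logb_iff_rpow_le (by norm_num) (by positivity), le_div_iff₀ a1] at h5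
    exact h5
  · right
    have h5 : max 0 (x i) = 0 := by
      rcases max_choice 0 (x i) with h | h
      · exact h
      · rw [h] at h1
        linarith
    rw [h5] at h1
    by_contra hcon
    push Not at hcon
    have : 0 < (thn W c - ε / 2) * Z.L i := mul_pos (by linarith) h3
    linarith

/-- **RG2** in the form of `E/RG.lean` -/
theorem rG2 : RG2 := by
  intro κ C₀ _ _ _ h8 K Z W H B kk jj c1 hS hA hc1 hC₀ hκ
  obtain ⟨W', hle, hLe, hb, φ, JF, hB⟩ := rg2 h8 W hA hc1 hκ hC₀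
    (fun c hc ε hε => CS.le_lg (W.J_OL hc) hε) (fun c hc ε hε => thn_spec W hc hε)
    (fun W' h => VS.card_big (fun c hc => (hS W' h).1 c hc) h)
  exact ⟨W', hLe, fun c => (dn hle hb).pull (B c), φ, JF, hB⟩

end Vale.Agent.P106.R.H425
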