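import Vale.Agent.P106.R.H425.RG2

/-!
# P106 / R, copy of P122 / H425 : the law of a sequence of valid structures, fields of RegA (helper425, spare copy for 610)
-/

set_option autoImplicit false

namespace Vale.Agent.P106.R.H425

open Filter Topology Finset Vale.Agent.P127 Vale.Agent.P127.Stk Vale.Agent.P127.U Vale.Agent.P127.U.Sys
  Vale.Agent.P106.R.C2 Vale.Agent.P106.R.E Vale.Agent.P106.R.H610

variable {K : ℕ} {Z : CS K}

/-- number of children -/
theorem law_kid (W : VS Z) {c : ℕ} (hc : c < K) : Cnt W.flg.S (W.flg.Y (c + 1)) (W.flg.N c) (W.Jn c) := by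
  intro ε hε
  filter_upwards [CS.le_lg (W.J_OL hc) (half_pos hε), CS.const_le (Z := Z) 1 (half_pos hε)] with i h1 h2 ω _
  refine ⟨(W.V i).G c ((W.flg.N c i ω).sg (Z.n i)), ?_, ?_⟩
  · have h3 := ((W.ok i).size c hc _ (nd_D (W.ok i) hc.le ω.2)).2
    have h4 : (((W.V i).G c ((W.flg.N c i ω).sg (Z.n i))).card : ℝ) ≤ (2:ℝ) ^ (((W.J i c + 1 : ℕ) : ℝ)) := by
      rw [Real.rpow_natCast]
      exact_mod_cast h3.le
    refine h4.trans (Real.rpow_le_rpow_of_exponent_le (by norm_num) ?_)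
    have e1 : Z.lg (fun i => (W.J i c : ℝ)) = W.Jn c := rfl
    have e2 : (W.flg.S.L i : ℝ) = Z.L i := rfl
    rw [e1] at h1
    rw [e2]
    push_cast
    linarith
  · intro ω' _ e
    have h3 := nd_G (W.ok i) hc ω'.2
    have e' : nd (Z.F i).s (Z.n i) K c ω'.1 = nd (Z.F i).s (Z.n i) K c ω.1 := e
    rw [e'] at h3
    exact h3

/-- number of starting cells -/
theorem law_x1 (W : VS Z) (hX : Z.OL fun i => Real.logb 2 ((W.V i).X.card)) :
    Cnt W.flg.S W.flg.x (one (S := W.flg.S)) (Z.lg fun i => Real.logb 2 ((W.V i).X.card)) := by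
  intro ε hε
  filter_upwards [CS.le_lg hX hε] with i h1 ω _
  refine ⟨(W.V i).X, ?_, ?_⟩
  · have h2 : (0:ℝ) < (W.V i).X.card := by exact_mod_cast (W.ne i).card_pos
    rw [Real.logb_le_iff_le_rpow (by norm_num) h2] at h1
    exact h1
  · intro ω' _ _
    exact nd_D (W.ok i) (c := 0) (Nat.zero_le _) ω'.2

/-- the flags are uniform -/
theorem law_flag (W : VS Z) (hX : Z.OL fun i => Real.logb 2 ((W.V i).X.card)) :
    Unf W.flg.S (Sys.pr W.flg.x (W.flg.Y K)) ((Z.lg fun i => Real.logb 2 ((W.V i).X.card)) + ∑ c ∈ range K, W.Jn c) := by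
  classical
  intro ε hε
  filter_upwards [CS.lg_le hX (half_pos hε), CS.lg_le W.sumJ_OL (half_pos hε)] with i h1 h2 ω
  rw [W.Jn_sum] at h2
  have hp : (0:ℝ) < (W.fl i).card := by exact_mod_cast (W.fl_ne i).card_pos
  have hx : (0:ℝ) < (W.V i).X.card := by exact_mod_cast (W.ne i).card_pos
  -- the flag is determined
  have h3 : (W.flg.S.P i).pr (Sys.pr W.flg.x (W.flg.Y K) i) (Sys.pr W.flg.x (W.flg.Y K) i ω) ≤ 1 / (W.fl i).card := by
    have e := uL_pr (W.fl_ne i) (Sys.pr W.flg.x (W.flg.Y K) i) (Sys.pr W.flg.x (W.flg.Y K) i ω)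
    refine (le_of_eq e).trans ?_
    refine div_le_div_of_nonneg_right ?_ hp.le
    have : (univ.filter fun f : {f // f ∈ W.fl i} => Sys.pr W.flg.x (W.flg.Y K) i f =
        Sys.pr W.flg.x (W.flg.Y K) i ω).card ≤ 1 := by
      rw [Finset.card_le_one]
      intro a ha b hb
      have h4 : Sys.pr W.flg.x (W.flg.Y K) i a = Sys.pr W.flg.x (W.flg.Y K) i b :=
        (mem_filter.1 ha).2.trans (mem_filter.1 hb).2.symm
      have h4' : (nd (Z.F i).s (Z.n i) K 0 a.1, (nd (Z.F i).s (Z.n i) K K a.1).τ) =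
        (nd (Z.F i).s (Z.n i) K 0 b.1, (nd (Z.F i).s (Z.n i) K K b.1).τ) := h4
      have h5' := congrArg Prod.fst h4'
      have h5 : a.1.1 = b.1.1 := h5'
      have h6' := congrArg Prod.snd h4'
      have h6 : (nd (Z.F i).s (Z.n i) K K a.1).τ = (nd (Z.F i).s (Z.n i) K K b.1).τ := h6'
      rw [nd_τ (W.ok i) le_rfl a.2, nd_τ (W.ok i) le_rfl b.2, Nat.sub_self, an_zero, an_zero] at h6
      exact Subtype.ext (Prod.ext h5 h6)
    exact_mod_cast this
  refine h3.trans ?_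
  have c1 := (card_Fg (W.ok i) (i := K) le_rfl).1
  have c1' : ((W.V i).X.card : ℝ) * 2 ^ ((∑ c ∈ range K, W.J i c : ℕ) : ℝ) ≤ (W.fl i).card := by
    rw [Real.rpow_natCast]
    exact_mod_cast c1
  have c2 : (2:ℝ) ^ (((Z.lg fun i => Real.logb 2 ((W.V i).X.card)) - ε / 2) * Z.L i) ≤ (W.V i).X.card := by
    rw [← Real.le_logb_iff_rpow_le (by norm_num) hx]
    exact h1
  have c3 : (2:ℝ) ^ ((∑ c ∈ range K, W.Jn c - ε / 2) * Z.L i) ≤ (2:ℝ) ^ ((∑ c ∈ range K, W.J i c : ℕ) : ℝ) :=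
    Real.rpow_le_rpow_of_exponent_le (by norm_num) h2
  have e2 : (W.flg.S.L i : ℝ) = Z.L i := rfl
  rw [e2, one_div, ← Real.rpow_neg_one, ]
  have c4 : (2:ℝ) ^ (((Z.lg fun i => Real.logb 2 ((W.V i).X.card)) + ∑ c ∈ range K, W.Jn c - ε) * Z.L i) ≤ (W.fl i).card := by
    calc _ = (2:ℝ) ^ (((Z.lg fun i => Real.logb 2 ((W.V i).X.card)) - ε / 2) * Z.L i) *
          (2:ℝ) ^ ((∑ c ∈ range K, W.Jn c - ε / 2) * Z.L i) := by
          rw [← Real.rpow_add (by norm_num)]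
          congr 1
          ring
      _ ≤ ((W.V i).X.card : ℝ) * 2 ^ ((∑ c ∈ range K, W.J i c : ℕ) : ℝ) := mul_le_mul c2 c3 (by positivity) hx.le
      _ ≤ _ := c1'
  rw [Real.rpow_neg_one]
  calc ((W.fl i).card : ℝ)⁻¹ ≤ ((2:ℝ) ^ (((Z.lg fun i => Real.logb 2 ((W.V i).X.card)) + ∑ c ∈ range K, W.Jn c - ε) * Z.L i))⁻¹ :=
        inv_anti₀ (by positivity) c4
    _ = _ := by
        rw [← Real.rpow_neg (by norm_num)]
        congr 1
        ring

/-- [L] -/
theorem law_L (W : VS Z) {c : ℕ} (hc : c < K) : 2 * thn W c ≤ W.Jn c := by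
  by_contra hcon
  push Not at hcon
  set ε : ℝ := (2 * thn W c - W.Jn c) / 16 with hε
  have hε0 : 0 < ε := by rw [hε]; linarith
  have hJ0 := W.Jn_nonneg hc
  have hC : (0:ℝ) < Z.C := lt_of_lt_of_le one_pos Z.C1
  obtain ⟨i, h1, h2, h3, h4, h5⟩ := ((thn_spec W hc hε0).and ((CS.le_lg (W.J_OL hc) hε0).and
    ((CS.const_le (Z := Z) (Real.logb 2 (4 * Z.C)) hε0).and ((W.ρbig.neg_log_le hε0).and Z.L_pos)))).exists
  have e1 : Z.lg (fun i => (W.J i c : ℝ)) = W.Jn c := rfl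
  rw [e1] at h2
  rcases h1 with h1 | h1
  · obtain ⟨f, hf⟩ := W.fl_ne i
    have hS := nd_D (W.ok i) hc.le hf
    have h6 := (W.ok i).L (W.ρpos i) hC.le hc hS
    have a0 := (W.ok i).apos c hc.le
    have a1 := (W.ok i).apos (c + 1) (by omega)
    have r0 := W.ρpos i
    have h7 : (2 : ℝ) ^ ((thn W c + W.Jn c / 2 - ε) * Z.L i) ≤ 4 * Z.C * 2 ^ (W.J i c) / W.ρ i := by
      rw [le_div_iff₀ r0]
      have h8 : (2 : ℝ) ^ ((thn W c + W.Jn c / 2 - ε) * Z.L i) * W.a i (c + 1) * W.ρ i ≤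
          4 * Z.C * 2 ^ (W.J i c) * W.a i (c + 1) := by
        calc _ ≤ W.a i c * W.ρ i := mul_le_mul_of_nonneg_right h1 r0.le
          _ = W.ρ i * W.a i c := mul_comm _ _
          _ ≤ _ := h6
      have h9 : ((2 : ℝ) ^ ((thn W c + W.Jn c / 2 - ε) * Z.L i) * W.ρ i) * W.a i (c + 1) ≤
          (4 * Z.C * 2 ^ (W.J i c)) * W.a i (c + 1) := by linarith
      exact le_of_mul_le_mul_right h9 a1
    have h8 := Real.logb_le_logb_of_le (by norm_num : (1:ℝ) < 2) (by positivity) h7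
    rw [Real.logb_rpow (by norm_num) (by norm_num), Real.logb_div (by positivity) r0.ne',
      Real.logb_mul (by positivity) (by positivity), Real.logb_pow, Real.logb_self_eq_one (by norm_num), mul_one] at h8
    have h9 : (thn W c + W.Jn c / 2 - ε) * Z.L i ≤ (W.Jn c + 3 * ε) * Z.L i := by nlinarith
    have h10 := le_of_mul_le_mul_right h9 h5
    rw [hε] at h10
    linarith
  · rw [hε] at h1
    linarith

/-- [B1] -/
theorem law_B1 (W : VS Z) {c : ℕ} (hc : c < K) : Cnt W.flg.S (W.flg.N c) (W.flg.sg c) (2 / K - 2 * thn W c) := by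
  classical
  have hC : (0:ℝ) < Z.C := lt_of_lt_of_le one_pos Z.C1
  have hK : (0:ℝ) < K := by exact_mod_cast Z.K1
  intro ε hε
  have hε8 : 0 < ε / 8 := by positivity
  filter_upwards [thn_spec W hc hε8, CS.le_lg (W.J_OL hc) hε8, CS.const_le (Z := Z) (Real.logb 2 (8 * Z.C)) hε8,
    W.ρbig.neg_log_le hε8, Z.L_pos] with i h1 h2 h3 h4 h5 ω _
  have e1 : Z.lg (fun i => (W.J i c : ℝ)) = W.Jn c := rfl
  rw [e1] at h2
  have e2 : (W.flg.S.L i : ℝ) = Z.L i := rfl
  set σ := W.flg.sg c i ω with hσ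
  set U := ((W.V i).D (Z.F i).s (Z.n i) c).filter fun S => S.sg (Z.n i) = σ with hU
  refine ⟨U, ?_, fun ω' _ e => mem_filter.2 ⟨nd_D (W.ok i) hc.le ω'.2, e⟩⟩
  rw [e2]
  have hn : (Z.n i : ℝ) = 1 / K * Z.L i := by
    rw [Z.L_eq]
    field_simp
  have hne : U.Nonempty := ⟨W.flg.N c i ω, mem_filter.2 ⟨nd_D (W.ok i) hc.le ω.2, rfl⟩⟩
  have hcp : (0:ℝ) < U.card := by exact_mod_cast hne.card_pos
  rcases h1 with h1 | h1
  · have h6 := (W.ok i).B1 (W.ρpos i) hC.le hc σ U (filter_subset _ _) fun S hS => (mem_filter.1 hS).2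
    have a0 := (W.ok i).apos c hc.le
    have a1 := (W.ok i).apos (c + 1) (by omega)
    have r0 := W.ρpos i
    have h7 : (U.card : ℝ) * (W.ρ i * ((2 : ℝ) ^ ((thn W c + W.Jn c / 2 - ε / 8) * Z.L i))) ^ 2 ≤
        8 * Z.C * 2 ^ (2 * Z.n i + W.J i c) := by
      have h8 : (W.ρ i * ((2 : ℝ) ^ ((thn W c + W.Jn c / 2 - ε / 8) * Z.L i) * W.a i (c + 1))) ^ 2 ≤ (W.ρ i * W.a i c) ^ 2 := by
        apply pow_le_pow_left₀ (by positivity)
        exact mul_le_mul_of_nonneg_left h1 r0.le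
      have h9 : ((U.card : ℝ) * (W.ρ i * ((2 : ℝ) ^ ((thn W c + W.Jn c / 2 - ε / 8) * Z.L i))) ^ 2) * W.a i (c + 1) ^ 2 ≤
          (8 * Z.C * 2 ^ (2 * Z.n i + W.J i c)) * W.a i (c + 1) ^ 2 := by
        calc _ = (U.card : ℝ) * (W.ρ i * ((2 : ℝ) ^ ((thn W c + W.Jn c / 2 - ε / 8) * Z.L i) * W.a i (c + 1))) ^ 2 := by ring
          _ ≤ (U.card : ℝ) * (W.ρ i * W.a i c) ^ 2 := mul_le_mul_of_nonneg_left h8 hcp.le
          _ ≤ _ := h6
      exact le_of_mul_le_mul_right h9 (by positivity)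
    have h8 := Real.logb_le_logb_of_le (by norm_num : (1:ℝ) < 2) (by positivity) h7
    have h12 : (0:ℝ) < (2 : ℝ) ^ ((thn W c + W.Jn c / 2 - ε / 8) * Z.L i) := Real.rpow_pos_of_pos (by norm_num) _
    rw [Real.logb_mul hcp.ne' (by positivity), Real.logb_pow, Real.logb_mul r0.ne' h12.ne',
      Real.logb_rpow (by norm_num) (by norm_num), Real.logb_mul (by positivity) (by positivity), Real.logb_pow,
      Real.logb_self_eq_one (by norm_num), mul_one] at h8
    rw [← Real.logb_le_iff_le_rpow (by norm_num) hcp]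
    push_cast at h8
    rw [hn] at h8
    have h9 : (2 / K - 2 * thn W c + ε) * Z.L i = 2 * (1 / K * Z.L i) - 2 * thn W c * Z.L i + ε * Z.L i := by ring
    rw [h9]
    nlinarith
  · -- the trivial count
    have h6 : U.card ≤ 2 ^ (2 * Z.n i) := by
      have hp : (0:ℤ) < 2 ^ Z.n i := by positivity
      have h7 : U.card ≤ (Fintype.piFinset fun k : Fin 2 => Finset.Ico (2 ^ Z.n i * σ.o k) (2 ^ Z.n i * σ.o k + 2 ^ Z.n i)).card := by
        refine Finset.card_le_card_of_injOn (fun S => S.o) ?_ ?_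
        · intro S hS
          rw [Finset.mem_coe, mem_filter] at hS
          rw [Finset.mem_coe, Fintype.mem_piFinset]
          intro k
          have g1 : S.o k / 2 ^ Z.n i = σ.o k := congrFun (congrArg Nd.o hS.2) k
          have d1 := Int.mul_ediv_add_emod (S.o k) (2 ^ Z.n i)
          have d2 := Int.emod_nonneg (S.o k) hp.ne'
          have d3 := Int.emod_lt_of_pos (S.o k) hp
          rw [g1] at d1
          show S.o k ∈ Finset.Ico (2 ^ Z.n i * σ.o k) (2 ^ Z.n i * σ.o k + 2 ^ Z.n i)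
          rw [mem_Ico]
          constructor <;> omega
        · intro S hS S' hS' he
          rw [Finset.mem_coe, mem_filter] at hS hS'
          have t := hS.2.trans hS'.2.symm
          have t1' := congrArg Nd.τ t
          have t2' := congrArg Nd.T t
          have t1 : S.τ = S'.τ := t1'
          have t2 : S.T = S'.T := t2'
          have t3' := congrArg Nd.w t
          have t3 : S.w = S'.w := t3'
          exact Nd.ext t1 he t2 t3
      refine h7.trans (le_of_eq ?_)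
      rw [Fintype.card_piFinset]
      have : ∀ k : Fin 2, (Finset.Ico (2 ^ Z.n i * σ.o k) (2 ^ Z.n i * σ.o k + 2 ^ Z.n i)).card = 2 ^ Z.n i := by
        intro k
        rw [Int.card_Ico]
        have : (2 ^ Z.n i * σ.o k + 2 ^ Z.n i - 2 ^ Z.n i * σ.o k : ℤ) = ((2 ^ Z.n i : ℕ) : ℤ) := by push_cast; ring
        rw [this, Int.toNat_natCast]
      simp only [this, Fin.prod_univ_two]
      rw [← pow_add]
      congr 1
      ring
    have h7 : (U.card : ℝ) ≤ (2:ℝ) ^ (((2 * Z.n i : ℕ) : ℝ)) := by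
      rw [Real.rpow_natCast]
      exact_mod_cast h6
    refine h7.trans (Real.rpow_le_rpow_of_exponent_le (by norm_num) ?_)
    push_cast
    rw [hn]
    have h8 : (2 / K - 2 * thn W c + ε) * Z.L i = 2 * (1 / K * Z.L i) + (ε - 2 * thn W c) * Z.L i := by ring
    rw [h8]
    have : 0 ≤ (ε - 2 * thn W c) * Z.L i := mul_nonneg (by linarith) h5.le
    linarith

end Vale.Agent.P106.R.H425
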